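import Vale.Agent.P181.DG.Defs
import Vale.Agent.P181.SZT0.Tr

set_option autoImplicit false

/-!
# P181, DG (D0): transport of `PKT` along a bijection of the large columns
-/

open MvPolynomial

namespace Vale.Agent.P181.DGx.H831

open Vale.Agent.P181.T4 (HW rowOp rowOp_apply mem_HW)
open Vale.Agent.P181.DG
open Vale.Agent.P181.SZT0 (rc rc_inj inj_pr coeff_rc rc_mem_HW exists_equiv)

/-- Membership in `PKT`. -/
lemma mem_PKT {m S : ℕ} {σ : Type} [Fintype σ] {d : σ → ℕ} {t : ℕ} {mu : Fin m → ℕ}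
    {f : MvPolynomial (Fin m × (σ ⊕ Fin t)) ℂ} :
    f ∈ PKT m S σ d t mu ↔ f ∈ HW m (σ ⊕ Fin t) mu ∧
    (∀ v, coeff v f ≠ 0 → (∀ j : σ, ∑ i, v (i, Sum.inl j) = d j) ∧
      ∀ j : Fin t, ∑ i, v (i, Sum.inr j) < S) ∧
    (∀ (e : Equiv.Perm σ) (s : Equiv.Perm (Fin t)), (∀ j, d (e j) = d j) →
      rename (fun p : Fin m × (σ ⊕ Fin t) => (p.1, Sum.map e s p.2)) f = f) ∧
    ∀ i, ∑ j : Fin t, pderiv (i, (Sum.inr j : σ ⊕ Fin t)) f = 0 := Iff.rfl

instance finiteDimensional_PKT (m S : ℕ) (σ : Type) [Fintype σ] (d : σ → ℕ) (t : ℕ)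
    (mu : Fin m → ℕ) : FiniteDimensional ℂ (PKT m S σ d t mu) :=
  Submodule.finiteDimensional_of_le (S₂ := HW m (σ ⊕ Fin t) mu) fun _ h => h.1

/-- Derivatives of a polynomial with renamed columns. -/
lemma pderiv_rc {m : ℕ} {σ τ : Type} {ι : τ → σ} (hι : Function.Injective ι) (i : Fin m) (j : τ)
    (f : MvPolynomial (Fin m × τ) ℂ) : pderiv (i, ι j) (rc m ι f) = rc m ι (pderiv (i, j) f) :=
  pderiv_rename (inj_pr hι) (i, j) f

/-- Transport along a bijection of the large columns, one inclusion. -/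
lemma rc_mem_PKT {m S t : ℕ} {σ τ : Type} [Fintype σ] [Fintype τ] (e : σ ≃ τ) {d : σ → ℕ}
    {d' : τ → ℕ} (hd : ∀ j, d' (e j) = d j) {mu : Fin m → ℕ}
    {f : MvPolynomial (Fin m × (σ ⊕ Fin t)) ℂ} (hf : f ∈ PKT m S σ d t mu) :
    rc m (Sum.map e id) f ∈ PKT m S τ d' t mu := by
  obtain ⟨h0, h1, h2, h3⟩ := mem_PKT.1 hf
  have hι : Function.Injective (Sum.map e id : σ ⊕ Fin t → τ ⊕ Fin t) :=
    Sum.map_injective.2 ⟨e.injective, Function.injective_id⟩
  refine mem_PKT.2 ⟨(rc_mem_HW hι).2 h0, ?_, ?_, ?_⟩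
  · intro v hv
    obtain ⟨u, hu, h4, h5⟩ := coeff_rc hι hv
    refine ⟨fun j => ?_, fun j => ?_⟩
    · obtain ⟨j, rfl⟩ := e.surjective j
      rw [hd, ← (h1 u hu).1 j]
      exact Finset.sum_congr rfl fun i _ => h4 i (Sum.inl j)
    · have h6 := (h1 u hu).2 j
      have h7 : ∑ i, v (i, Sum.inr j) = ∑ i, u (i, Sum.inr j) :=
        Finset.sum_congr rfl fun i _ => h4 i (Sum.inr j)
      rw [h7]
      exact h6
  · intro ε s hε
    have h4 := h2 ((e.trans ε).trans e.symm) s (by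
      intro j
      have h5 : d' (e ((e.trans ε).trans e.symm j)) = d' (ε (e j)) := by simp
      rw [← hd, h5, hε, hd])
    have h5 : rename (fun p : Fin m × (τ ⊕ Fin t) => (p.1, Sum.map ε s p.2))
        (rc m (Sum.map e id) f) = rc m (Sum.map e id)
          (rename (fun p : Fin m × (σ ⊕ Fin t) =>
            (p.1, Sum.map ((e.trans ε).trans e.symm) s p.2)) f) := by
      rw [rc, rename_rename, rename_rename]
      congr 2
      funext p
      obtain ⟨i, j⟩ := p
      rcases j with j | j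
      · simp
      · simp
    rw [h5, h4]
  · intro i
    have h4 : ∀ j : Fin t, pderiv (i, (Sum.inr j : τ ⊕ Fin t)) (rc m (Sum.map e id) f)
        = rc m (Sum.map e id) (pderiv (i, (Sum.inr j : σ ⊕ Fin t)) f) :=
      fun j => pderiv_rc hι i (Sum.inr j) f
    rw [Finset.sum_congr rfl fun j _ => h4 j, ← map_sum, h3 i, map_zero]

/-- Transport along a bijection, dimensions, one inequality. -/
lemma finrank_le {m S t : ℕ} {σ τ : Type} [Fintype σ] [Fintype τ] (e : σ ≃ τ) {d : σ → ℕ}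
    {d' : τ → ℕ} (hd : ∀ j, d' (e j) = d j) (mu : Fin m → ℕ) :
    Module.finrank ℂ (PKT m S σ d t mu) ≤ Module.finrank ℂ (PKT m S τ d' t mu) := by
  have hι : Function.Injective (Sum.map e id : σ ⊕ Fin t → τ ⊕ Fin t) :=
    Sum.map_injective.2 ⟨e.injective, Function.injective_id⟩
  let L : PKT m S σ d t mu →ₗ[ℂ] PKT m S τ d' t mu :=
    (rc m (Sum.map e id : σ ⊕ Fin t → τ ⊕ Fin t)).toLinearMap.restrict
      fun f hf => rc_mem_PKT e hd hf
  refine LinearMap.finrank_le_finrank_of_injective (f := L) ?_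
  intro f g hfg
  apply Subtype.ext
  apply rc_inj (m := m) hι
  exact congrArg Subtype.val hfg

/-- Transport along a bijection. -/
lemma finrank_eq {m S t : ℕ} {σ τ : Type} [Fintype σ] [Fintype τ] (e : σ ≃ τ) {d : σ → ℕ}
    {d' : τ → ℕ} (hd : ∀ j, d' (e j) = d j) (mu : Fin m → ℕ) :
    Module.finrank ℂ (PKT m S σ d t mu) = Module.finrank ℂ (PKT m S τ d' t mu) :=
  le_antisymm (finrank_le e hd mu) (finrank_le e.symm (fun j => by rw [← hd, e.apply_symm_apply]) mu)

/-- Families with the same multiset of degrees. -/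
lemma finrank_of_map_eq {m S t : ℕ} {σ τ : Type} [Fintype σ] [Fintype τ] {d : σ → ℕ}
    {d' : τ → ℕ} (h : Finset.univ.val.map d = Finset.univ.val.map d') (mu : Fin m → ℕ) :
    Module.finrank ℂ (PKT m S σ d t mu) = Module.finrank ℂ (PKT m S τ d' t mu) := by
  obtain ⟨e, he⟩ := exists_equiv d d' h
  exact finrank_eq e he mu

lemma map_get (k : Multiset ℕ) :
    (Finset.univ.val.map fun j : Fin k.toList.length => k.toList.get j) = k := by
  rw [Fin.univ_val_map, List.ofFn_get, Multiset.coe_toList]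

/-- **(D0)** transport. -/
theorem transT : TransT := by
  intro m S σ _ d t mu
  exact finrank_of_map_eq (map_get _).symm mu

end Vale.Agent.P181.DGx.H831
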