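import Vale.Agent.P181.DGx.H831.Mono
import Vale.Agent.P181.DGx.H514.Lit

set_option autoImplicit false

/-!
# P181, DG (D4) [K]: dropping a small column

`up` is a bijection from `PKT t` onto the elements of `PKT (t + 1)` without a monomial in which
all small columns occur.
-/

open MvPolynomial

namespace Vale.Agent.P181.DGx.H831

open Vale.Agent.P181.T4 (HW rowOp rowOp_apply mem_HW)
open Vale.Agent.P181.DG
open Vale.Agent.P181.DG.H514 (KerT KerStmt)
open Vale.Agent.P181.SZT0 (rc rc_inj inj_pr coeff_rc rc_mem_HW rowOp_rc sum_row)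

lemma rc_rc {m : ℕ} {α β γ : Type} (ι' : β → γ) (ι : α → β) (f : MvPolynomial (Fin m × α) ℂ) :
    rc m ι' (rc m ι f) = rc m (fun x => ι' (ι x)) f := by
  rw [rc, rc, rc, rename_rename]
  rfl

section ker

variable {m S t : ℕ} {σ : Type}

/-- Symmetric in the small columns. -/
def Sy (m : ℕ) (σ : Type) (t : ℕ) (f : MvPolynomial (Fin m × (σ ⊕ Fin t)) ℂ) : Prop :=
  ∀ s : Equiv.Perm (Fin t), rc m (Sum.map id s : σ ⊕ Fin t → σ ⊕ Fin t) f = f

lemma pm_inj {t : ℕ} (s : Equiv.Perm (Fin t)) :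
    Function.Injective (Sum.map id s : σ ⊕ Fin t → σ ⊕ Fin t) :=
  Sum.map_injective.2 ⟨Function.injective_id, s.injective⟩

lemma rc_range' {g g' : Fin t → Fin (t + 1)} (hg : Function.Injective g)
    (hg' : Function.Injective g') (h : Set.range g = Set.range g')
    {f : MvPolynomial (Fin m × (σ ⊕ Fin t)) ℂ} (hf : Sy m σ t f) :
    rc m (Sum.map id g' : σ ⊕ Fin t → σ ⊕ Fin (t + 1)) f = rc m (Sum.map id g) f := by
  obtain ⟨π, hπ⟩ := exists_perm_of_range hg hg' h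
  have h2 : rc m (Sum.map id g : σ ⊕ Fin t → σ ⊕ Fin (t + 1))
      (rc m (Sum.map id π : σ ⊕ Fin t → σ ⊕ Fin t) f) = rc m (Sum.map id g') f := by
    rw [rc_rc]
    congr 2
    funext x
    rcases x with x | x
    · simp
    · simp [hπ]
  rw [← h2, hf π]

lemma rc_sk_perm (s : Equiv.Perm (Fin (t + 1))) (j : Fin (t + 1))
    {f : MvPolynomial (Fin m × (σ ⊕ Fin t)) ℂ} (hf : Sy m σ t f) :
    rc m (Sum.map id s : σ ⊕ Fin (t + 1) → σ ⊕ Fin (t + 1)) (rc m (sk σ j) f)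
      = rc m (sk σ (s j)) f := by
  rw [rc_rc]
  have h : (fun x => (Sum.map id s : σ ⊕ Fin (t + 1) → σ ⊕ Fin (t + 1)) (sk σ j x))
      = (Sum.map id (fun x => s (j.succAbove x)) : σ ⊕ Fin t → σ ⊕ Fin (t + 1)) := by
    funext x
    rcases x with x | x
    · simp [sk]
    · simp [sk]
  rw [h]
  exact rc_range' Fin.succAbove_right_injective
    (fun x y h => Fin.succAbove_right_injective (s.injective h))
    (range_perm_succAbove s j).symm hf

lemma sy_up {f : MvPolynomial (Fin m × (σ ⊕ Fin t)) ℂ} (hf : Sy m σ t f) :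
    Sy m σ (t + 1) (up m σ t f) := by
  intro s
  rw [up_apply, map_sum, Finset.sum_congr rfl fun j _ => rc_sk_perm s j hf]
  exact Equiv.sum_comp s fun j => rc m (sk σ j) f

/-- A permutation of the small columns of an exponent. -/
noncomputable def pm {t : ℕ} (s : Equiv.Perm (Fin t)) (v : Fin m × (σ ⊕ Fin t) →₀ ℕ) :
    Fin m × (σ ⊕ Fin t) →₀ ℕ :=
  Finsupp.mapDomain
    (fun p : Fin m × (σ ⊕ Fin t) => (p.1, (Sum.map id s : σ ⊕ Fin t → σ ⊕ Fin t) p.2)) v

lemma pm_inl {t : ℕ} (s : Equiv.Perm (Fin t)) (v : Fin m × (σ ⊕ Fin t) →₀ ℕ) (i : Fin m)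
    (j : σ) : pm s v (i, Sum.inl j) = v (i, Sum.inl j) :=
  Finsupp.mapDomain_apply (inj_pr (pm_inj s)) v (i, Sum.inl j)

lemma pm_inr {t : ℕ} (s : Equiv.Perm (Fin t)) (v : Fin m × (σ ⊕ Fin t) →₀ ℕ) (i : Fin m)
    (j : Fin t) : pm s v (i, Sum.inr (s j)) = v (i, Sum.inr j) :=
  Finsupp.mapDomain_apply (inj_pr (pm_inj s)) v (i, Sum.inr j)

lemma coeff_pm {t : ℕ} (s : Equiv.Perm (Fin t)) {g : MvPolynomial (Fin m × (σ ⊕ Fin t)) ℂ}
    (hg : Sy m σ t g) (v : Fin m × (σ ⊕ Fin t) →₀ ℕ) : coeff (pm s v) g = coeff v g := by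
  have h := coeff_rename_mapDomain _ (inj_pr (pm_inj (σ := σ) s)) g v
  have h2 := hg s
  rw [rc] at h2
  rw [h2] at h
  exact h

lemma coeff_sk {f : MvPolynomial (Fin m × (σ ⊕ Fin t)) ℂ} (hf : Sy m σ t f)
    (v : Fin m × (σ ⊕ Fin t) →₀ ℕ) (j : Fin (t + 1)) :
    coeff (ex0 v) (rc m (sk σ j) f)
      = open scoped Classical in if ∀ i, ex0 v (i, Sum.inr j) = 0 then coeff v f else 0 := by
  classical
  split_ifs with h
  · have h1 := rc_sk_perm (Equiv.swap j (Fin.last t)) (Fin.last t) hf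
    rw [Equiv.swap_apply_right] at h1
    rw [← h1]
    have h2 : pm (Equiv.swap j (Fin.last t)) (ex0 v) = ex0 v := by
      ext ⟨i, l⟩
      rcases l with l | l
      · exact pm_inl _ _ _ _
      · obtain ⟨l', rfl⟩ := (Equiv.swap j (Fin.last t)).surjective l
        rw [pm_inr]
        by_cases ha : l' = j
        · subst ha
          rw [Equiv.swap_apply_left, h i, ex0_last]
        · by_cases hb : l' = Fin.last t
          · subst hb
            rw [Equiv.swap_apply_right, h i, ex0_last]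
          · rw [Equiv.swap_apply_of_ne_of_ne ha hb]
    have h3 := coeff_rename_mapDomain _ (inj_pr (pm_inj (σ := σ) (Equiv.swap j (Fin.last t))))
      (rc m (sk σ (Fin.last t)) f) (ex0 v)
    have h4 : coeff (ex0 v) (rc m (sk σ (Fin.last t)) f) = coeff v f :=
      coeff_rename_mapDomain _ (inj_pr (sk_inj _)) f v
    rw [h4] at h3
    rw [← h3]
    conv_lhs => rw [← h2]
    rfl
  · by_contra h1
    obtain ⟨u, hu, h4, h5⟩ := coeff_rc (sk_inj j) h1
    apply h
    intro i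
    apply h5
    rintro ⟨x, hx⟩
    rcases x with x | x
    · simp [sk] at hx
    · simp only [sk, Sum.map_inr, Sum.inr.injEq] at hx
      exact Fin.succAbove_ne j x hx

open scoped Classical in
/-- The number of small columns of `ex0 v` which are zero. -/
noncomputable def zc (v : Fin m × (σ ⊕ Fin t) →₀ ℕ) : ℕ :=
  (Finset.univ.filter fun j : Fin (t + 1) => ∀ i, ex0 v (i, Sum.inr j) = 0).card

lemma zc_ne (v : Fin m × (σ ⊕ Fin t) →₀ ℕ) : (zc v : ℂ) ≠ 0 := by
  classical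
  rw [Ne, Nat.cast_eq_zero, zc, Finset.card_eq_zero]
  intro h1
  have h2 : Fin.last t ∈ (Finset.univ.filter fun j : Fin (t + 1) =>
      ∀ i, ex0 v (i, Sum.inr j) = 0) :=
    Finset.mem_filter.2 ⟨Finset.mem_univ _, fun i => ex0_last v i⟩
  rw [h1] at h2
  exact absurd h2 (Finset.notMem_empty _)

lemma coeff_up {f : MvPolynomial (Fin m × (σ ⊕ Fin t)) ℂ} (hf : Sy m σ t f)
    (v : Fin m × (σ ⊕ Fin t) →₀ ℕ) : coeff (ex0 v) (up m σ t f) = (zc v : ℂ) * coeff v f := by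
  classical
  rw [up_apply, coeff_sum, Finset.sum_congr rfl fun j _ => coeff_sk hf v j,
    Finset.sum_ite, Finset.sum_const_zero, add_zero, Finset.sum_const, nsmul_eq_mul]
  rfl

lemma up_inj' {f : MvPolynomial (Fin m × (σ ⊕ Fin t)) ℂ} (hf : Sy m σ t f)
    (h : up m σ t f = 0) : f = 0 := by
  apply MvPolynomial.ext
  intro v
  have h1 := coeff_up hf v
  rw [h, coeff_zero] at h1
  rw [coeff_zero]
  rcases mul_eq_zero.1 h1.symm with h2 | h2
  · exact absurd h2 (zc_ne v)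
  · exact h2

lemma ex0_inj : Function.Injective
    (ex0 : (Fin m × (σ ⊕ Fin t) →₀ ℕ) → (Fin m × (σ ⊕ Fin (t + 1)) →₀ ℕ)) :=
  Finsupp.mapDomain_injective (inj_pr (sk_inj _))

lemma exists_ex0 {w : Fin m × (σ ⊕ Fin (t + 1)) →₀ ℕ}
    (hw : ∀ i, w (i, Sum.inr (Fin.last t)) = 0) : ∃ u, ex0 u = w := by
  refine ⟨Finsupp.comapDomain
    (fun p : Fin m × (σ ⊕ Fin t) => (p.1, sk σ (Fin.last t) p.2)) w
    (inj_pr (sk_inj (Fin.last t))).injOn, ?_⟩
  apply Finsupp.mapDomain_comapDomain _ (inj_pr (sk_inj (Fin.last t)))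
  rintro ⟨i, l⟩ hl
  rw [Finset.mem_coe, Finsupp.mem_support_iff] at hl
  rcases l with l | l
  · exact ⟨(i, Sum.inl l), rfl⟩
  · have h1 : l ≠ Fin.last t := by
      rintro rfl
      exact hl (hw i)
    obtain ⟨x, hx⟩ := Fin.exists_succAbove_eq h1
    refine ⟨(i, Sum.inr x), ?_⟩
    rw [← hx]
    rfl

open scoped Classical in
/-- The polynomial in one small column less. -/
noncomputable def dn0 (g : MvPolynomial (Fin m × (σ ⊕ Fin (t + 1))) ℂ) :
    MvPolynomial (Fin m × (σ ⊕ Fin t)) ℂ :=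
  ∑ w ∈ g.support, if h : ∃ u : Fin m × (σ ⊕ Fin t) →₀ ℕ, ex0 u = w then
    monomial h.choose (coeff w g / (zc h.choose : ℂ)) else 0

lemma coeff_dn0 (g : MvPolynomial (Fin m × (σ ⊕ Fin (t + 1))) ℂ)
    (u : Fin m × (σ ⊕ Fin t) →₀ ℕ) : coeff u (dn0 g) = coeff (ex0 u) g / (zc u : ℂ) := by
  classical
  rw [dn0, coeff_sum]
  by_cases hu : ex0 u ∈ g.support
  · rw [Finset.sum_eq_single (ex0 u)]
    · have h : ∃ u' : Fin m × (σ ⊕ Fin t) →₀ ℕ, ex0 u' = ex0 u := ⟨u, rfl⟩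
      have h2 : h.choose = u := ex0_inj h.choose_spec
      rw [dif_pos h, h2, coeff_monomial, if_pos rfl]
    · intro w hw hne
      split_ifs with h
      · rw [coeff_monomial, if_neg]
        intro h1
        apply hne
        rw [← h.choose_spec, h1]
      · exact coeff_zero _
    · exact fun h => absurd hu h
  · rw [notMem_support_iff.1 hu, zero_div]
    apply Finset.sum_eq_zero
    intro w hw
    split_ifs with h
    · rw [coeff_monomial, if_neg]
      intro h1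
      apply hu
      rw [← h1, h.choose_spec]
      exact hw
    · exact coeff_zero _

lemma exists_ext (s : Equiv.Perm (Fin t)) : ∃ s' : Equiv.Perm (Fin (t + 1)),
    ∀ x, s' ((Fin.last t).succAbove x) = (Fin.last t).succAbove (s x) := by
  let ie : Fin t ↪ Fin (t + 1) := ⟨(Fin.last t).succAbove, Fin.succAbove_right_injective⟩
  exact ⟨s.viaEmbedding ie, fun x => s.viaEmbedding_apply ie x⟩

lemma ex0_pm {s : Equiv.Perm (Fin t)} {s' : Equiv.Perm (Fin (t + 1))}
    (hs : ∀ x, s' ((Fin.last t).succAbove x) = (Fin.last t).succAbove (s x))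
    (u : Fin m × (σ ⊕ Fin t) →₀ ℕ) : ex0 (pm s u) = pm s' (ex0 u) := by
  rw [ex0, pm, ex0, pm, ← Finsupp.mapDomain_comp, ← Finsupp.mapDomain_comp]
  congr 1
  funext p
  obtain ⟨i, l⟩ := p
  rcases l with l | l
  · rfl
  · simp only [Function.comp_apply, sk, Sum.map_inr, hs]

lemma zc_pm (s : Equiv.Perm (Fin t)) (u : Fin m × (σ ⊕ Fin t) →₀ ℕ) : zc (pm s u) = zc u := by
  classical
  obtain ⟨s', hs⟩ := exists_ext s
  symm
  rw [zc, zc]
  apply Finset.card_equiv s'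
  intro j
  rw [Finset.mem_filter, Finset.mem_filter, ex0_pm hs]
  simp only [Finset.mem_univ, true_and, pm_inr]

lemma sy_dn0 {g : MvPolynomial (Fin m × (σ ⊕ Fin (t + 1))) ℂ} (hg : Sy m σ (t + 1) g) :
    Sy m σ t (dn0 g) := by
  intro s
  apply MvPolynomial.ext
  intro u
  obtain ⟨s', hs⟩ := exists_ext s
  have h1 : pm s (pm s⁻¹ u) = u := by
    rw [pm, pm, ← Finsupp.mapDomain_comp]
    conv_rhs => rw [← Finsupp.mapDomain_id (v := u)]
    congr 1
    funext p
    obtain ⟨i, l⟩ := p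
    rcases l with l | l
    · rfl
    · simp
  have h2 : coeff (pm s (pm s⁻¹ u)) (rc m (Sum.map id s : σ ⊕ Fin t → σ ⊕ Fin t) (dn0 g))
      = coeff (pm s⁻¹ u) (dn0 g) :=
    coeff_rename_mapDomain _ (inj_pr (pm_inj s)) (dn0 g) (pm s⁻¹ u)
  have h3 : coeff (pm s (pm s⁻¹ u)) (dn0 g) = coeff (pm s⁻¹ u) (dn0 g) := by
    rw [coeff_dn0, coeff_dn0, zc_pm s, ex0_pm hs, coeff_pm s' hg]
  rw [h1] at h2 h3
  rw [h2, h3]

lemma up_dn0 {g : MvPolynomial (Fin m × (σ ⊕ Fin (t + 1))) ℂ} (hg : Sy m σ (t + 1) g)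
    (hz : ∀ v, coeff v g ≠ 0 → ∃ j : Fin (t + 1), ∑ i, v (i, Sum.inr j) = 0) :
    up m σ t (dn0 g) = g := by
  classical
  apply MvPolynomial.ext
  intro v
  by_cases h : ∃ j : Fin (t + 1), ∀ i, v (i, Sum.inr j) = 0
  · obtain ⟨j, hj⟩ := h
    have h0 : ∀ i, pm (Equiv.swap j (Fin.last t)) v (i, Sum.inr (Fin.last t)) = 0 := by
      intro i
      have h1 := pm_inr (Equiv.swap j (Fin.last t)) v i j
      rw [Equiv.swap_apply_left] at h1
      rw [h1, hj i]
    obtain ⟨u, hu⟩ := exists_ex0 h0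
    have h1 := coeff_pm (Equiv.swap j (Fin.last t)) (sy_up (sy_dn0 hg)) v
    have h2 := coeff_pm (Equiv.swap j (Fin.last t)) hg v
    rw [← h1, ← h2, ← hu, coeff_up (sy_dn0 hg), coeff_dn0, mul_div_cancel₀ _ (zc_ne u)]
  · have h1 : coeff v g = 0 := by
      by_contra h2
      obtain ⟨j, hj⟩ := hz v h2
      exact h ⟨j, fun i => (Finset.sum_eq_zero_iff.1 hj) i (Finset.mem_univ i)⟩
    rw [h1, up_apply, coeff_sum]
    apply Finset.sum_eq_zero
    intro j _
    by_contra h2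
    obtain ⟨u, hu, h4, h5⟩ := coeff_rc (sk_inj j) h2
    apply h
    refine ⟨j, fun i => h5 i _ ?_⟩
    rintro ⟨x, hx⟩
    rcases x with x | x
    · simp [sk] at hx
    · simp only [sk, Sum.map_inr, Sum.inr.injEq] at hx
      exact Fin.succAbove_ne j x hx

lemma pderiv_up (f : MvPolynomial (Fin m × (σ ⊕ Fin t)) ℂ) (i : Fin m) :
    ∑ l : Fin (t + 1), pderiv (i, (Sum.inr l : σ ⊕ Fin (t + 1))) (up m σ t f)
      = up m σ t (∑ x : Fin t, pderiv (i, (Sum.inr x : σ ⊕ Fin t)) f) := by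
  have h4 : ∀ j : Fin (t + 1), ∑ l : Fin (t + 1),
      pderiv (i, (Sum.inr l : σ ⊕ Fin (t + 1))) (rc m (sk σ j) f)
        = rc m (sk σ j) (∑ x : Fin t, pderiv (i, (Sum.inr x : σ ⊕ Fin t)) f) := by
    intro j
    rw [Fin.sum_univ_succAbove _ j]
    have h5 : pderiv (i, (Sum.inr j : σ ⊕ Fin (t + 1))) (rc m (sk σ j) f) = 0 := by
      classical
      apply pderiv_eq_zero_of_notMem_vars
      intro h7
      have h8 := vars_rename (fun p : Fin m × (σ ⊕ Fin t) => (p.1, sk σ j p.2)) f h7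
      rw [Finset.mem_image] at h8
      obtain ⟨⟨a, b⟩, _, hab⟩ := h8
      have h9 : sk σ j b = Sum.inr j := congrArg Prod.snd hab
      rcases b with b | b
      · simp [sk] at h9
      · simp only [sk, Sum.map_inr, Sum.inr.injEq] at h9
        exact Fin.succAbove_ne j b h9
    have h6 : ∀ x : Fin t, pderiv (i, (Sum.inr (j.succAbove x) : σ ⊕ Fin (t + 1)))
        (rc m (sk σ j) f) = rc m (sk σ j) (pderiv (i, (Sum.inr x : σ ⊕ Fin t)) f) :=
      fun x => pderiv_rc (sk_inj j) i (Sum.inr x) f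
    rw [h5, zero_add, Finset.sum_congr rfl fun x _ => h6 x, ← map_sum]
  have h7 : ∀ l : Fin (t + 1), pderiv (i, (Sum.inr l : σ ⊕ Fin (t + 1)))
      (∑ j : Fin (t + 1), rc m (sk σ j) f)
      = ∑ j : Fin (t + 1), pderiv (i, (Sum.inr l : σ ⊕ Fin (t + 1))) (rc m (sk σ j) f) :=
    fun l => map_sum _ _ _
  rw [up_apply, up_apply, Finset.sum_congr rfl fun l _ => h7 l, Finset.sum_comm]
  exact Finset.sum_congr rfl fun j _ => h4 j

lemma sy_pderiv {f : MvPolynomial (Fin m × (σ ⊕ Fin t)) ℂ} (hf : Sy m σ t f) (i : Fin m) :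
    Sy m σ t (∑ x : Fin t, pderiv (i, (Sum.inr x : σ ⊕ Fin t)) f) := by
  intro s
  rw [map_sum]
  have h1 : ∀ x : Fin t, rc m (Sum.map id s : σ ⊕ Fin t → σ ⊕ Fin t)
      (pderiv (i, (Sum.inr x : σ ⊕ Fin t)) f) = pderiv (i, (Sum.inr (s x) : σ ⊕ Fin t)) f := by
    intro x
    have h2 := pderiv_rc (pm_inj (σ := σ) s) i (Sum.inr x) f
    rw [hf s] at h2
    exact h2.symm
  rw [Finset.sum_congr rfl fun x _ => h1 x]
  exact Equiv.sum_comp s fun x => pderiv (i, (Sum.inr x : σ ⊕ Fin t)) f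

variable [Fintype σ]

lemma rowOp_up (f : MvPolynomial (Fin m × (σ ⊕ Fin t)) ℂ) (a b : Fin m) :
    rowOp a b (up m σ t f) = up m σ t (rowOp a b f) := by
  rw [up_apply, up_apply, map_sum]
  exact Finset.sum_congr rfl fun j _ => rowOp_rc (sk_inj j) a b f

lemma sy_rowOp {f : MvPolynomial (Fin m × (σ ⊕ Fin t)) ℂ} (hf : Sy m σ t f) (a b : Fin m) :
    Sy m σ t (rowOp a b f) := by
  intro s
  rw [← rowOp_rc (pm_inj s), hf s]

variable {d : σ → ℕ} {mu : Fin m → ℕ}

lemma sy_of_mem {f : MvPolynomial (Fin m × (σ ⊕ Fin t)) ℂ} (hf : f ∈ PKT m S σ d t mu) :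
    Sy m σ t f :=
  fun s => (mem_PKT.1 hf).2.2.1 1 s fun _ => rfl

lemma up_mem_Ker (hS : 1 ≤ S) {f : MvPolynomial (Fin m × (σ ⊕ Fin t)) ℂ}
    (hf : f ∈ PKT m S σ d t mu) : up m σ t f ∈ KerT m S σ d t mu := by
  refine ⟨up_mem hS hf, fun v hv => ?_⟩
  obtain ⟨j, hj⟩ : ∃ j, coeff v (rc m (sk σ j) f) ≠ 0 := by
    by_contra h
    push Not at h
    apply hv
    rw [up_apply, coeff_sum]
    exact Finset.sum_eq_zero fun j _ => h j
  obtain ⟨u, hu, h4, h5⟩ := coeff_rc (sk_inj j) hj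
  refine ⟨j, Finset.sum_eq_zero fun i _ => h5 i _ ?_⟩
  rintro ⟨x, hx⟩
  rcases x with x | x
  · simp [sk] at hx
  · simp only [sk, Sum.map_inr, Sum.inr.injEq] at hx
    exact Fin.succAbove_ne j x hx

lemma dn0_mem {g : MvPolynomial (Fin m × (σ ⊕ Fin (t + 1))) ℂ} (hg : g ∈ KerT m S σ d t mu) :
    dn0 g ∈ PKT m S σ d t mu := by
  obtain ⟨hg1, hg2⟩ := hg
  obtain ⟨h0, h1, h2, h3⟩ := mem_PKT.1 hg1
  have hsy : Sy m σ (t + 1) g := sy_of_mem hg1
  have hup := up_dn0 hsy hg2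
  have hsd := sy_dn0 hsy
  have hco : ∀ u, coeff u (dn0 g) ≠ 0 → coeff (ex0 u) g ≠ 0 := by
    intro u hu h
    apply hu
    rw [coeff_dn0, h, zero_div]
  have hex : ∀ (u : Fin m × (σ ⊕ Fin t) →₀ ℕ) (i : Fin m) (j : σ ⊕ Fin t),
      ex0 u (i, sk σ (Fin.last t) j) = u (i, j) := fun u i j =>
    Finsupp.mapDomain_apply (inj_pr (sk_inj _)) u (i, j)
  refine mem_PKT.2 ⟨?_, ?_, ?_, ?_⟩
  · rw [mem_HW]
    rw [mem_HW] at h0
    refine ⟨fun u hu i => ?_, fun a b hab => ?_⟩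
    · rw [← h0.1 _ (hco u hu) i]
      symm
      apply sum_row (sk_inj (Fin.last t))
      · exact fun i j => hex u i j
      · intro i j hj
        apply Finsupp.mapDomain_of_notMem_range
        rintro ⟨⟨a, b⟩, hab⟩
        exact hj ⟨b, congrArg Prod.snd hab⟩
    · apply up_inj' (sy_rowOp hsd a b)
      rw [← rowOp_up, hup]
      exact h0.2 a b hab
  · intro u hu
    obtain ⟨h4, h5⟩ := h1 _ (hco u hu)
    refine ⟨fun j => ?_, fun j => ?_⟩
    · rw [← h4 j]
      exact Finset.sum_congr rfl fun i _ => (hex u i (Sum.inl j)).symm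
    · have h6 := h5 ((Fin.last t).succAbove j)
      have h7 : ∑ i, u (i, Sum.inr j)
          = ∑ i, ex0 u (i, Sum.inr ((Fin.last t).succAbove j)) :=
        Finset.sum_congr rfl fun i _ => (hex u i (Sum.inr j)).symm
      rw [h7]
      exact h6
  · intro e s he
    have h4 : rename (fun p : Fin m × (σ ⊕ Fin t) => (p.1, Sum.map e s p.2)) (dn0 g)
        = rc m (Sum.map e id : σ ⊕ Fin t → σ ⊕ Fin t) (dn0 g) := by
      conv_rhs => rw [← hsd s, rc_rc]
      rw [rc]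
      congr 2
      funext p
      obtain ⟨i, l⟩ := p
      rcases l with l | l
      · rfl
      · rfl
    rw [h4]
    have h5 : Sy m σ t (rc m (Sum.map e id : σ ⊕ Fin t → σ ⊕ Fin t) (dn0 g) - dn0 g) := by
      intro s'
      rw [map_sub, hsd s', rc_rc]
      have h6 : (fun x => (Sum.map id s' : σ ⊕ Fin t → σ ⊕ Fin t)
          ((Sum.map e id : σ ⊕ Fin t → σ ⊕ Fin t) x))
          = fun x => (Sum.map e id : σ ⊕ Fin t → σ ⊕ Fin t)
            ((Sum.map id s' : σ ⊕ Fin t → σ ⊕ Fin t) x) := by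
        funext x
        rcases x with x | x
        · rfl
        · rfl
      rw [h6, ← rc_rc, hsd s']
    have h6 : up m σ t (rc m (Sum.map e id : σ ⊕ Fin t → σ ⊕ Fin t) (dn0 g) - dn0 g) = 0 := by
      rw [map_sub, hup, sub_eq_zero]
      have h7 : up m σ t (rc m (Sum.map e id : σ ⊕ Fin t → σ ⊕ Fin t) (dn0 g))
          = rc m (Sum.map e id : σ ⊕ Fin (t + 1) → σ ⊕ Fin (t + 1)) (up m σ t (dn0 g)) := by
        rw [up_apply, up_apply, map_sum]
        apply Finset.sum_congr rfl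
        intro j _
        rw [rc_rc, rc_rc]
        congr 2
        funext x
        rcases x with x | x
        · rfl
        · rfl
      rw [h7, hup]
      exact h2 e 1 he
    exact sub_eq_zero.1 (up_inj' h5 h6)
  · intro i
    apply up_inj' (sy_pderiv hsd i)
    rw [← pderiv_up, hup]
    exact h3 i

end ker

/-- **[K]** dropping a small column. -/
theorem kerStmt : KerStmt := by
  intro m S σ _ d t mu hS
  let L : PKT m S σ d t mu →ₗ[ℂ] KerT m S σ d t mu :=
    (up m σ t).restrict fun f hf => up_mem_Ker hS hf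
  have hL : Function.Bijective L := by
    constructor
    · rw [← LinearMap.ker_eq_bot, LinearMap.ker_eq_bot']
      intro f hf
      apply Subtype.ext
      exact up_inj' (sy_of_mem f.2) (congrArg Subtype.val hf)
    · intro g
      refine ⟨⟨dn0 g.1, dn0_mem g.2⟩, ?_⟩
      apply Subtype.ext
      exact up_dn0 (sy_of_mem g.2.1) g.2.2
  exact (LinearEquiv.ofBijective L hL).finrank_eq.symm

end Vale.Agent.P181.DGx.H831
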