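import Vale.Agent.P181.DGx.H831.Trans

set_option autoImplicit false

/-!
# P181, DG (D1): one more small column

The map: sum over the `t + 1` ways to leave out one small column.
-/

open MvPolynomial

namespace Vale.Agent.P181.DGx.H831

open Vale.Agent.P181.T4 (HW rowOp rowOp_apply mem_HW)
open Vale.Agent.P181.DG
open Vale.Agent.P181.SZT0 (rc rc_inj inj_pr coeff_rc rc_mem_HW exists_equiv)

/-- Two injections with the same range differ by a permutation. -/
lemma exists_perm_of_range {α β : Type} {g g' : α → β} (hg : Function.Injective g)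
    (hg' : Function.Injective g') (h : Set.range g = Set.range g') :
    ∃ π : Equiv.Perm α, ∀ x, g' x = g (π x) := by
  let φ := Equiv.ofInjective g hg
  let φ' := Equiv.ofInjective g' hg'
  let π : Equiv.Perm α := (φ'.trans (Equiv.setCongr h.symm)).trans φ.symm
  refine ⟨π, fun x => ?_⟩
  have h1 : φ (π x) = Equiv.setCongr h.symm (φ' x) := by
    simp [π]
  have h2 : ((φ (π x) : Set.range g) : β) = g' x := by
    rw [h1]
    rfl
  rw [← h2]
  rfl

section mono

variable {m S t : ℕ} {σ : Type} [Fintype σ] {d : σ → ℕ} {mu : Fin m → ℕ}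

/-- The columns with the small column `j` left out. -/
def sk (σ : Type) {t : ℕ} (j : Fin (t + 1)) : σ ⊕ Fin t → σ ⊕ Fin (t + 1) :=
  Sum.map id j.succAbove

omit [Fintype σ] in
lemma sk_inj (j : Fin (t + 1)) : Function.Injective (sk σ j) :=
  Sum.map_injective.2 ⟨Function.injective_id, Fin.succAbove_right_injective⟩

/-- Renaming the small columns by an injection only depends on the range. -/
lemma rc_range {g g' : Fin t → Fin (t + 1)} (hg : Function.Injective g)
    (hg' : Function.Injective g') (h : Set.range g = Set.range g')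
    {f : MvPolynomial (Fin m × (σ ⊕ Fin t)) ℂ} (hf : f ∈ PKT m S σ d t mu) :
    rc m (Sum.map id g' : σ ⊕ Fin t → σ ⊕ Fin (t + 1)) f = rc m (Sum.map id g) f := by
  obtain ⟨π, hπ⟩ := exists_perm_of_range hg hg' h
  have h1 := (mem_PKT.1 hf).2.2.1 1 π (fun j => rfl)
  have h2 : rc m (Sum.map id g : σ ⊕ Fin t → σ ⊕ Fin (t + 1))
      (rename (fun p : Fin m × (σ ⊕ Fin t) =>
        (p.1, Sum.map (1 : Equiv.Perm σ) π p.2)) f) = rc m (Sum.map id g') f := by
    rw [rc, rc, rename_rename]
    congr 2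
    funext p
    obtain ⟨i, j⟩ := p
    rcases j with j | j
    · simp
    · simp [hπ]
  rw [← h2, h1]

lemma range_perm_succAbove (s : Equiv.Perm (Fin (t + 1))) (j : Fin (t + 1)) :
    Set.range (fun x => s (j.succAbove x)) = Set.range ((s j).succAbove) := by
  rw [Fin.range_succAbove]
  ext y
  constructor
  · rintro ⟨x, rfl⟩ h
    exact Fin.succAbove_ne j x (s.injective h)
  · intro hy
    have h1 : s.symm y ≠ j := by
      intro h
      apply hy
      rw [Set.mem_singleton_iff, ← h, s.apply_symm_apply]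
    obtain ⟨x, hx⟩ := Fin.exists_succAbove_eq h1
    refine ⟨x, ?_⟩
    change s (j.succAbove x) = y
    rw [hx, s.apply_symm_apply]

/-- A permutation moves the column left out. -/
lemma rename_rc_sk (e : Equiv.Perm σ) (s : Equiv.Perm (Fin (t + 1))) (he : ∀ j, d (e j) = d j)
    (j : Fin (t + 1)) {f : MvPolynomial (Fin m × (σ ⊕ Fin t)) ℂ} (hf : f ∈ PKT m S σ d t mu) :
    rename (fun p : Fin m × (σ ⊕ Fin (t + 1)) => (p.1, Sum.map e s p.2)) (rc m (sk σ j) f)
      = rc m (sk σ (s j)) f := by
  have h1 := (mem_PKT.1 hf).2.2.1 e 1 he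
  have h2 : rename (fun p : Fin m × (σ ⊕ Fin (t + 1)) => (p.1, Sum.map e s p.2))
      (rc m (sk σ j) f) = rc m (Sum.map id (fun x => s (j.succAbove x)))
        (rename (fun p : Fin m × (σ ⊕ Fin t) =>
          (p.1, Sum.map e (1 : Equiv.Perm (Fin t)) p.2)) f) := by
    rw [rc, rc, rename_rename, rename_rename]
    congr 2
    funext p
    obtain ⟨i, l⟩ := p
    rcases l with l | l
    · simp [sk]
    · simp [sk]
  rw [h2, h1]
  exact rc_range Fin.succAbove_right_injective
    (fun x y h => Fin.succAbove_right_injective (s.injective h))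
    (range_perm_succAbove s j).symm hf

/-- The sum over the columns left out. -/
noncomputable def up (m : ℕ) (σ : Type) (t : ℕ) :
    MvPolynomial (Fin m × (σ ⊕ Fin t)) ℂ →ₗ[ℂ] MvPolynomial (Fin m × (σ ⊕ Fin (t + 1))) ℂ :=
  ∑ j : Fin (t + 1), (rc m (sk σ j)).toLinearMap

omit [Fintype σ] in
lemma up_apply (f : MvPolynomial (Fin m × (σ ⊕ Fin t)) ℂ) :
    up m σ t f = ∑ j : Fin (t + 1), rc m (sk σ j) f := by
  rw [up, LinearMap.sum_apply]
  rfl

lemma up_mem (hS : 1 ≤ S) {f : MvPolynomial (Fin m × (σ ⊕ Fin t)) ℂ}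
    (hf : f ∈ PKT m S σ d t mu) : up m σ t f ∈ PKT m S σ d (t + 1) mu := by
  obtain ⟨h0, h1, h2, h3⟩ := mem_PKT.1 hf
  rw [up_apply]
  refine mem_PKT.2 ⟨?_, ?_, ?_, ?_⟩
  · exact Submodule.sum_mem _ fun j _ => (rc_mem_HW (sk_inj j)).2 h0
  · intro v hv
    obtain ⟨j, hj⟩ : ∃ j, coeff v (rc m (sk σ j) f) ≠ 0 := by
      by_contra h
      push Not at h
      apply hv
      rw [coeff_sum]
      exact Finset.sum_eq_zero fun j _ => h j
    obtain ⟨u, hu, h4, h5⟩ := coeff_rc (sk_inj j) hj
    refine ⟨fun l => ?_, fun l => ?_⟩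
    · rw [← (h1 u hu).1 l]
      exact Finset.sum_congr rfl fun i _ => h4 i (Sum.inl l)
    · by_cases hl : l = j
      · have h6 : ∑ i, v (i, Sum.inr l) = 0 := by
          apply Finset.sum_eq_zero
          intro i _
          apply h5
          rintro ⟨x, hx⟩
          rcases x with x | x
          · simp [sk] at hx
          · simp only [sk, Sum.map_inr, Sum.inr.injEq] at hx
            exact Fin.succAbove_ne j x (hx.trans hl)
        omega
      · obtain ⟨x, hx⟩ := Fin.exists_succAbove_eq hl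
        have h6 : ∑ i, v (i, Sum.inr l) = ∑ i, u (i, Sum.inr x) := by
          apply Finset.sum_congr rfl
          intro i _
          have h7 := h4 i (Sum.inr x)
          simp only [sk, Sum.map_inr, hx] at h7
          exact h7
        rw [h6]
        exact (h1 u hu).2 x
  · intro e s he
    rw [map_sum]
    rw [Finset.sum_congr rfl fun j _ => rename_rc_sk e s he j hf]
    exact Equiv.sum_comp s fun j => rc m (sk σ j) f
  · intro i
    have h4 : ∀ j : Fin (t + 1), ∑ l : Fin (t + 1),
        pderiv (i, (Sum.inr l : σ ⊕ Fin (t + 1))) (rc m (sk σ j) f) = 0 := by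
      intro j
      rw [Fin.sum_univ_succAbove _ j]
      have h5 : pderiv (i, (Sum.inr j : σ ⊕ Fin (t + 1))) (rc m (sk σ j) f) = 0 := by
        classical
        apply pderiv_eq_zero_of_notMem_vars
        intro h7
        have h8 := vars_rename (fun p : Fin m × (σ ⊕ Fin t) => (p.1, sk σ j p.2)) f h7
        rw [Finset.mem_image] at h8
        obtain ⟨⟨a, b⟩, _, hab⟩ := h8
        have h9 : sk σ j b = Sum.inr j := congrArg Prod.snd hab
        rcases b with b | b
        · simp [sk] at h9
        · simp only [sk, Sum.map_inr, Sum.inr.injEq] at h9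
          exact Fin.succAbove_ne j b h9
      have h6 : ∀ x : Fin t, pderiv (i, (Sum.inr (j.succAbove x) : σ ⊕ Fin (t + 1)))
          (rc m (sk σ j) f) = rc m (sk σ j) (pderiv (i, (Sum.inr x : σ ⊕ Fin t)) f) :=
        fun x => pderiv_rc (sk_inj j) i (Sum.inr x) f
      rw [h5, zero_add, Finset.sum_congr rfl fun x _ => h6 x, ← map_sum, h3 i, map_zero]
    have h7 : ∀ l : Fin (t + 1), pderiv (i, (Sum.inr l : σ ⊕ Fin (t + 1)))
        (∑ j : Fin (t + 1), rc m (sk σ j) f)
        = ∑ j : Fin (t + 1), pderiv (i, (Sum.inr l : σ ⊕ Fin (t + 1))) (rc m (sk σ j) f) :=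
      fun l => map_sum _ _ _
    rw [Finset.sum_congr rfl fun l _ => h7 l, Finset.sum_comm]
    exact Finset.sum_eq_zero fun j _ => h4 j

/-- The monomial with an empty last column. -/
noncomputable def ex0 (v : Fin m × (σ ⊕ Fin t) →₀ ℕ) : Fin m × (σ ⊕ Fin (t + 1)) →₀ ℕ :=
  Finsupp.mapDomain (fun p : Fin m × (σ ⊕ Fin t) => (p.1, sk σ (Fin.last t) p.2)) v

omit [Fintype σ] in
lemma ex0_last (v : Fin m × (σ ⊕ Fin t) →₀ ℕ) (i : Fin m) :
    ex0 v (i, Sum.inr (Fin.last t)) = 0 := by
  apply Finsupp.mapDomain_of_notMem_range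
  rintro ⟨⟨a, b⟩, hab⟩
  have h9 : sk σ (Fin.last t) b = Sum.inr (Fin.last t) := congrArg Prod.snd hab
  rcases b with b | b
  · simp [sk] at h9
  · simp only [sk, Sum.map_inr, Sum.inr.injEq] at h9
    exact Fin.succAbove_ne _ b h9

/-- The coefficient at a monomial with an empty last column. -/
lemma coeff_rc_sk {f : MvPolynomial (Fin m × (σ ⊕ Fin t)) ℂ} (hf : f ∈ PKT m S σ d t mu)
    (v : Fin m × (σ ⊕ Fin t) →₀ ℕ) (j : Fin (t + 1)) :
    coeff (ex0 v) (rc m (sk σ j) f)
      = open scoped Classical in if ∀ i, ex0 v (i, Sum.inr j) = 0 then coeff v f else 0 := by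
  classical
  split_ifs with h
  · have h1 := rename_rc_sk (1 : Equiv.Perm σ) (Equiv.swap j (Fin.last t)) (fun _ => rfl)
      (Fin.last t) hf
    rw [Equiv.swap_apply_right] at h1
    rw [← h1]
    have hin : Function.Injective (fun p : Fin m × (σ ⊕ Fin (t + 1)) =>
        (p.1, Sum.map (1 : Equiv.Perm σ) (Equiv.swap j (Fin.last t)) p.2)) := by
      apply inj_pr
      exact Sum.map_injective.2 ⟨Equiv.injective _, Equiv.injective _⟩
    have h2 : Finsupp.mapDomain (fun p : Fin m × (σ ⊕ Fin (t + 1)) =>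
        (p.1, Sum.map (1 : Equiv.Perm σ) (Equiv.swap j (Fin.last t)) p.2)) (ex0 v) = ex0 v := by
      ext ⟨i, l⟩
      obtain ⟨l', hl'⟩ : ∃ l', Sum.map (1 : Equiv.Perm σ) (Equiv.swap j (Fin.last t)) l' = l := by
        rcases l with l | l
        · exact ⟨Sum.inl l, by simp⟩
        · exact ⟨Sum.inr (Equiv.swap j (Fin.last t) l), by simp⟩
      have h3 := Finsupp.mapDomain_apply hin (ex0 v) (i, l')
      simp only [hl'] at h3
      rw [h3]
      rcases l' with l' | l'
      · rw [← hl']
        simp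
      · rw [← hl']
        simp only [Sum.map_inr]
        by_cases ha : l' = j
        · subst ha
          rw [Equiv.swap_apply_left, h i, ex0_last]
        · by_cases hb : l' = Fin.last t
          · subst hb
            rw [Equiv.swap_apply_right, h i, ex0_last]
          · rw [Equiv.swap_apply_of_ne_of_ne ha hb]
    rw [← h2, coeff_rename_mapDomain _ hin, ex0]
    exact coeff_rename_mapDomain _ (inj_pr (sk_inj _)) f v
  · by_contra h1
    obtain ⟨u, hu, h4, h5⟩ := coeff_rc (sk_inj j) h1
    apply h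
    intro i
    apply h5
    rintro ⟨x, hx⟩
    rcases x with x | x
    · simp [sk] at hx
    · simp only [sk, Sum.map_inr, Sum.inr.injEq] at hx
      exact Fin.succAbove_ne j x hx

lemma up_inj {f : MvPolynomial (Fin m × (σ ⊕ Fin t)) ℂ} (hf : f ∈ PKT m S σ d t mu)
    (h : up m σ t f = 0) : f = 0 := by
  classical
  apply MvPolynomial.ext
  intro v
  rw [coeff_zero]
  have h1 : coeff (ex0 v) (up m σ t f) = 0 := by rw [h, coeff_zero]
  rw [up_apply, coeff_sum, Finset.sum_congr rfl fun j _ => coeff_rc_sk hf v j,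
    Finset.sum_ite, Finset.sum_const_zero, add_zero, Finset.sum_const, nsmul_eq_mul,
    mul_eq_zero] at h1
  rcases h1 with h1 | h1
  · exfalso
    rw [Nat.cast_eq_zero, Finset.card_eq_zero] at h1
    have h2 : Fin.last t ∈ (Finset.univ.filter fun j : Fin (t + 1) =>
        ∀ i, ex0 v (i, Sum.inr j) = 0) :=
      Finset.mem_filter.2 ⟨Finset.mem_univ _, fun i => ex0_last v i⟩
    rw [h1] at h2
    exact absurd h2 (Finset.notMem_empty _)
  · exact h1

end mono

/-- One more small column, any family of large columns. -/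
theorem mono_pkt {m S : ℕ} (hS : 1 ≤ S) (σ : Type) [Fintype σ] (d : σ → ℕ) (t : ℕ)
    (mu : Fin m → ℕ) :
    Module.finrank ℂ (PKT m S σ d t mu) ≤ Module.finrank ℂ (PKT m S σ d (t + 1) mu) := by
  let L : PKT m S σ d t mu →ₗ[ℂ] PKT m S σ d (t + 1) mu :=
    (up m σ t).restrict fun f hf => up_mem hS hf
  refine LinearMap.finrank_le_finrank_of_injective (f := L) ?_
  rw [← LinearMap.ker_eq_bot, LinearMap.ker_eq_bot']
  intro f hf
  apply Subtype.ext
  exact up_inj f.2 (congrArg Subtype.val hf)

/-- **(D1)** one more small column. -/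
theorem monoT : MonoT := by
  intro m S mu kap t hS
  exact mono_pkt hS _ _ t mu

end Vale.Agent.P181.DGx.H831
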